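import Vale.Agent.P142K.Mean
import Vale.Agent.P142K.CertB.Main

/-!
P142: Brennan's integrability up to the exponent `31/8` for every conformal map onto the disc, and
the integral means exponent at `-2` at most `1.124`.
-/

open Set MeasureTheory Metric

namespace Vale.Agent.Results.P142.BrennanToThirtyOneEighths

theorem result :
    (∀ (U : Set ℂ) (φ : ℂ → ℂ), IsOpen U → DifferentiableOn ℂ φ U →
      BijOn φ U (ball 0 1) → ∀ s ∈ Icc (2 : ℝ) (31 / 8),
        ∫⁻ w in U, ENNReal.ofReal (‖deriv φ w‖ ^ s) < ⊤) ∧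
    (∀ f : ℂ → ℂ, DifferentiableOn ℂ f (ball 0 1) → InjOn f (ball 0 1) →
      ∀ t ∈ Icc (-15 / 8 : ℝ) 0, ∫⁻ z in ball (0 : ℂ) 1, ENNReal.ofReal (‖deriv f z‖ ^ t) < ⊤) ∧
    (∀ f : ℂ → ℂ, DifferentiableOn ℂ f (ball 0 1) → InjOn f (ball 0 1) →
      ∀ t ≤ (-15 / 8 : ℝ), ∃ C : ℝ, ∀ r ∈ Ico (0 : ℝ) 1,
        ∫ θ in (-Real.pi)..Real.pi, ‖deriv f (r * Complex.exp (θ * Complex.I))‖ ^ t ≤
          C * (1 - r) ^ (-(999 / 1000 + (-15 / 8 - t)))) ∧
    ∀ f : ℂ → ℂ, DifferentiableOn ℂ f (ball 0 1) → InjOn f (ball 0 1) →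
      ∃ C : ℝ, ∀ r ∈ Ico (0 : ℝ) 1,
        ∫ θ in (-Real.pi)..Real.pi, ‖deriv f (r * Complex.exp (θ * Complex.I))‖ ^ (-2 : ℝ) ≤
          C * (1 - r) ^ (-(1124 / 1000) : ℝ) := by
  have h := Vale.Agent.P142K.CertB.cert
  norm_num at h
  refine ⟨fun U φ hU hφ hb s hs => Vale.Agent.P142K.integrable_riemann h (by norm_num) hU hφ hb
      ⟨hs.1, hs.2.trans (by norm_num)⟩,
    fun f hf hinj t ht => Vale.Agent.P142K.integrable_powers h (by norm_num) hf hinj
      ⟨le_trans (by norm_num) ht.1, ht.2⟩, fun f hf hinj t ht => ?_, fun f hf hinj => ?_⟩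
  · obtain ⟨C, hC⟩ := Vale.Agent.P142K.integral_mean_bound_below h hf hinj (s := t)
      (ht.trans (by norm_num))
    refine ⟨C, fun r hr => ?_⟩
    have := hC r hr
    simp only [Vale.Agent.P142.pt] at this
    norm_num at this ⊢
    exact this
  · obtain ⟨C, hC⟩ := Vale.Agent.P142K.integral_mean_bound_below h hf hinj (s := -2) (by norm_num)
    refine ⟨C, fun r hr => ?_⟩
    have := hC r hr
    simp only [Vale.Agent.P142.pt] at this
    norm_num at this ⊢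
    exact this

end Vale.Agent.Results.P142.BrennanToThirtyOneEighths
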