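import Vale.Agent.P142.Area

/-!
P142: Brennan integrability for maps of the disc with Schwarzian norm at most `97/25`.
-/

open Set MeasureTheory

namespace Vale.Agent.Results.P142.SmallSchwarzian

theorem result : ∀ f : ℂ → ℂ, DifferentiableOn ℂ f (Metric.ball 0 1) →
    (∀ z ∈ Metric.ball (0 : ℂ) 1, deriv f z ≠ 0) →
    (∀ z ∈ Metric.ball (0 : ℂ) 1, (1 - ‖z‖ ^ 2) ^ 2 *
      ‖iteratedDeriv 3 f z / deriv f z - 3 / 2 * (iteratedDeriv 2 f z / deriv f z) ^ 2‖ ≤ 97 / 25) →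
    (∀ t ∈ Icc (-2 : ℝ) 0,
      ∫⁻ z in Metric.ball (0 : ℂ) 1, ENNReal.ofReal (‖deriv f z‖ ^ t) < ⊤) ∧
    (∀ φ : ℂ → ℂ, (∀ z ∈ Metric.ball (0 : ℂ) 1, φ (f z) = z) → ∀ s ∈ Icc (2 : ℝ) 4,
      ∫⁻ w in f '' Metric.ball (0 : ℂ) 1, ENNReal.ofReal (‖deriv φ w‖ ^ s) < ⊤) :=
  fun _ hf hne hS => ⟨fun _ ht => Vale.Agent.P142.finite_powers hf hne hS ht,
    fun _ hφ _ hs => Vale.Agent.P142.finite_inverse hf hne hS hφ hs⟩

end Vale.Agent.Results.P142.SmallSchwarzian
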